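import Vale.Agent.P205.Tori.Statement
import Vale.Agent.P205.Tori.Hopf
import Vale.Agent.P205.Tori.Solve
import Vale.Agent.P205.Tori.Uniform
import Vale.Agent.P205.Klein.Main
import Vale.Agent.P205.Klein.Verify

/-!
P205: every smooth Riemannian metric on the torus and on the Klein bottle has a smooth isometric
immersion into `ℝ⁴`.
-/

namespace Vale.Agent.Results.P205.EulerZeroIntoR4

theorem result :
    (∀ g : ℝ × ℝ → (ℝ × ℝ →L[ℝ] ℝ × ℝ →L[ℝ] ℝ), ContDiff ℝ (⊤ : ℕ∞) g →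
      (∀ z, g (z + (1, 0)) = g z ∧ g (z + (0, 1)) = g z) →
      (∀ z w w', g z w w' = g z w' w) → (∀ z w, w ≠ 0 → 0 < g z w w) →
      ∃ F : ℝ × ℝ → EuclideanSpace ℝ (Fin 4), ContDiff ℝ (⊤ : ℕ∞) F ∧
        (∀ z, F (z + (1, 0)) = F z ∧ F (z + (0, 1)) = F z) ∧
        ∀ z, Function.Injective (fderiv ℝ F z) ∧
          ∀ w w', inner ℝ (fderiv ℝ F z w) (fderiv ℝ F z w') = g z w w') ∧
    (∀ g : ℝ × ℝ → (ℝ × ℝ →L[ℝ] ℝ × ℝ →L[ℝ] ℝ), ContDiff ℝ (⊤ : ℕ∞) g →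
      (∀ z, g (z + (0, 1)) = g z) →
      (∀ z w w', g (z.1 + 1 / 2, -z.2) (w.1, -w.2) (w'.1, -w'.2) = g z w w') →
      (∀ z w w', g z w w' = g z w' w) → (∀ z w, w ≠ 0 → 0 < g z w w) →
      ∃ F : ℝ × ℝ → EuclideanSpace ℝ (Fin 4), ContDiff ℝ (⊤ : ℕ∞) F ∧
        (∀ z, F (z + (0, 1)) = F z ∧ F (z.1 + 1 / 2, -z.2) = F z) ∧
        ∀ z, Function.Injective (fderiv ℝ F z) ∧
          ∀ w w', inner ℝ (fderiv ℝ F z w) (fderiv ℝ F z w') = g z w w') :=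
  ⟨P205.Tori.torus_of
      (P205.Tori.metricGoal_of (P205.Tori.goal_of P205.Tori.Solve.solve P205.Tori.Hopf.hopf)
        P205.Tori.uniformStmt),
    P205.Klein.klein_of (P205.Klein.metricGoal_of_verify P205.Klein.verify)⟩

end Vale.Agent.Results.P205.EulerZeroIntoR4
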